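import Mathlib

/-!
# P054: distinct distances of point sets covered by rational curves of low degree
-/

namespace Vale.Agent.P054

open Polynomial

/-- the set of the nonzero distances pinned at `x` -/
noncomputable def pinned {d : ℕ} (P : Finset (EuclideanSpace ℝ (Fin d)))
    (x : EuclideanSpace ℝ (Fin d)) : Finset ℝ :=
  (P.erase x).image fun y => dist y x

/-- the set of all distances -/
noncomputable def dists {d : ℕ} (P : Finset (EuclideanSpace ℝ (Fin d))) : Finset ℝ :=
  P.offDiag.image fun q => dist q.1 q.2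

/-- `γ` is contained in a real rational curve of degree at most `D` in `ℝ^d`: the points with the
coordinates `X_i(t)/W(t)`, with real polynomials `X_i`, `W` of degree at most `D` -/
def InRational {d : ℕ} (D : ℕ) (γ : Set (EuclideanSpace ℝ (Fin d))) : Prop :=
  ∃ (X : Fin d → ℝ[X]) (W : ℝ[X]), (∀ i, (X i).natDegree ≤ D) ∧ W.natDegree ≤ D ∧
    ∀ p ∈ γ, ∃ t : ℝ, W.eval t ≠ 0 ∧ ∀ i, p i = (X i).eval t / W.eval t

private theorem dist_sq {d : ℕ} (p q : EuclideanSpace ℝ (Fin d)) :
    dist p q ^ 2 = ∑ i, (p i - q i) ^ 2 := by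
  rw [EuclideanSpace.dist_eq, Real.sq_sqrt (Finset.sum_nonneg fun i _ => sq_nonneg _)]
  simp [Real.dist_eq, sq_abs]

/-- a sphere centred at a point `x` of the curve contains at most `2 D` points of the curve -/
private theorem fibre {d D : ℕ} {γ : Set (EuclideanSpace ℝ (Fin d))} (hγ : InRational D γ)
    {x : EuclideanSpace ℝ (Fin d)} (hx : x ∈ γ)
    {r : ℝ} (hr : r ≠ 0) (S : Finset (EuclideanSpace ℝ (Fin d)))
    (hS : ∀ y ∈ S, y ∈ γ ∧ dist y x = r) : S.card ≤ 2 * D := by
  classical
  obtain ⟨X, W, hX, hW, h⟩ := hγ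
  set Q : ℝ[X] := (∑ i, (X i - C (x i) * W) ^ 2) - C (r ^ 2) * W ^ 2 with hQ
  have hdeg : Q.natDegree ≤ 2 * D := by
    have h1 : ∀ i, ((X i - C (x i) * W) ^ 2).natDegree ≤ 2 * D := fun i =>
      natDegree_pow_le.trans (Nat.mul_le_mul_left 2
        ((natDegree_sub_le _ _).trans (max_le (hX i) ((natDegree_C_mul_le _ _).trans hW))))
    have h3 : (∑ i, (X i - C (x i) * W) ^ 2).natDegree ≤ 2 * D :=
      natDegree_sum_le_of_forall_le _ _ fun i _ => h1 i
    have h5 : (C (r ^ 2) * W ^ 2).natDegree ≤ 2 * D :=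
      (natDegree_C_mul_le _ _).trans (natDegree_pow_le.trans (Nat.mul_le_mul_left 2 hW))
    exact (natDegree_sub_le _ _).trans (max_le h3 h5)
  have heval : ∀ (y : EuclideanSpace ℝ (Fin d)) (t : ℝ), W.eval t ≠ 0 →
      (∀ i, y i = (X i).eval t / W.eval t) →
      Q.eval t = W.eval t ^ 2 * (dist y x ^ 2 - r ^ 2) := by
    intro y t h1 h2
    rw [dist_sq, hQ, mul_sub, Finset.mul_sum]
    simp only [eval_sub, eval_pow, eval_mul, eval_C, eval_finsetSum]
    congr 1
    · refine Finset.sum_congr rfl fun i _ => ?_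
      rw [h2 i]
      field_simp
    · ring
  have hQ0 : Q ≠ 0 := by
    intro h0
    obtain ⟨t, h1, h2⟩ := h x hx
    have h4 := heval x t h1 h2
    rw [h0, eval_zero, dist_self] at h4
    have h5 : W.eval t ^ 2 * r ^ 2 = 0 := by linarith
    rcases mul_eq_zero.1 h5 with h6 | h6
    · exact h1 (pow_eq_zero_iff two_ne_zero |>.1 h6)
    · exact hr (pow_eq_zero_iff two_ne_zero |>.1 h6)
  choose! τ h1 h2 using h
  have hmap : ∀ y ∈ S, τ y ∈ Q.roots.toFinset := by
    intro y hy
    obtain ⟨hyγ, hyr⟩ := hS y hy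
    rw [Multiset.mem_toFinset, mem_roots hQ0, IsRoot.def,
      heval y (τ y) (h1 y hyγ) (h2 y hyγ), hyr, sub_self, mul_zero]
  have hinj : Set.InjOn τ S := by
    intro y hy z hz hyz
    have hy' := (hS y hy).1
    have hz' := (hS z hz).1
    ext i
    rw [h2 y hy' i, h2 z hz' i, hyz]
  calc S.card ≤ Q.roots.toFinset.card := Finset.card_le_card_of_injOn τ hmap hinj
    _ ≤ Q.roots.card := Multiset.toFinset_card_le _
    _ ≤ Q.natDegree := card_roots' Q
    _ ≤ 2 * D := hdeg

private theorem on_curve {d D : ℕ} {γ : Set (EuclideanSpace ℝ (Fin d))} (hγ : InRational D γ)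
    (P S : Finset (EuclideanSpace ℝ (Fin d)))
    (hSP : S ⊆ P) (hS : ∀ y ∈ S, y ∈ γ) {x : EuclideanSpace ℝ (Fin d)} (hx : x ∈ S) :
    S.card ≤ 2 * D * (pinned P x).card + 1 := by
  classical
  have h1 : (S.erase x).card ≤ 2 * D * ((S.erase x).image fun y => dist y x).card := by
    refine Finset.card_le_mul_card_image _ _ fun r hr => ?_
    obtain ⟨y, hy, rfl⟩ := Finset.mem_image.1 hr
    refine fibre hγ (hS x hx) (dist_ne_zero.2 (Finset.ne_of_mem_erase hy)) _ fun z hz => ?_
    rw [Finset.mem_filter] at hz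
    exact ⟨hS z (Finset.mem_of_mem_erase hz.1), hz.2⟩
  have h2 : ((S.erase x).image fun y => dist y x).card ≤ (pinned P x).card :=
    Finset.card_le_card (Finset.image_subset_image (Finset.erase_subset_erase x hSP))
  have h3 := Finset.card_erase_add_one hx
  have h4 := Nat.mul_le_mul_left (2 * D) h2
  omega

private theorem pinned_le {d : ℕ} (P : Finset (EuclideanSpace ℝ (Fin d)))
    {x : EuclideanSpace ℝ (Fin d)} (hx : x ∈ P) : (pinned P x).card ≤ (dists P).card := by
  refine Finset.card_le_card fun r hr => ?_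
  obtain ⟨y, hy, rfl⟩ := Finset.mem_image.1 hr
  refine Finset.mem_image.2 ⟨(y, x), ?_, rfl⟩
  rw [Finset.mem_offDiag]
  exact ⟨Finset.mem_of_mem_erase hy, hx, Finset.ne_of_mem_erase hy⟩

private theorem half {d D k : ℕ} (P : Finset (EuclideanSpace ℝ (Fin d)))
    (γ : Fin k → Set (EuclideanSpace ℝ (Fin d)))
    (hγ : ∀ i, InRational D (γ i)) (hP : ∀ p ∈ P, ∃ i, p ∈ γ i) :
    P.card ≤ 2 * (P.filter fun x => P.card ≤ 2 * k * (2 * D * (pinned P x).card + 1)).card := by
  classical
  set n := P.card with hn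
  set good := P.filter fun x => n ≤ 2 * k * (2 * D * (pinned P x).card + 1) with hgood
  set bad := P.filter fun x => ¬ n ≤ 2 * k * (2 * D * (pinned P x).card + 1) with hbad
  have h0 : good.card + bad.card = n := Finset.card_filter_add_card_filter_not _
  have h1 : bad.card * (2 * k) ≤ k * n := by
    have h2 : bad ⊆ Finset.univ.biUnion fun i : Fin k => bad.filter fun x => x ∈ γ i := by
      intro x hx
      obtain ⟨i, hi⟩ := hP x (Finset.mem_filter.1 hx).1
      exact Finset.mem_biUnion.2 ⟨i, Finset.mem_univ i, Finset.mem_filter.2 ⟨hx, hi⟩⟩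
    have h3 : ∀ i : Fin k, (bad.filter fun x => x ∈ γ i).card * (2 * k) ≤ n := by
      intro i
      rcases (bad.filter fun x => x ∈ γ i).eq_empty_or_nonempty with he | ⟨x, hx⟩
      · rw [he]
        simp
      · have h4 := on_curve (hγ i) P (bad.filter fun x => x ∈ γ i)
          ((Finset.filter_subset _ _).trans (Finset.filter_subset _ _))
          (fun y hy => (Finset.mem_filter.1 hy).2) hx
        have h5 := (Finset.mem_filter.1 (Finset.mem_filter.1 hx).1).2
        have h6 := Nat.mul_le_mul_left (2 * k) h4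
        rw [mul_comm]
        omega
    calc bad.card * (2 * k) ≤ (∑ i : Fin k, (bad.filter fun x => x ∈ γ i).card) * (2 * k) :=
          Nat.mul_le_mul_right _ ((Finset.card_le_card h2).trans Finset.card_biUnion_le)
      _ = ∑ i : Fin k, (bad.filter fun x => x ∈ γ i).card * (2 * k) := Finset.sum_mul _ _ _
      _ ≤ ∑ _i : Fin k, n := Finset.sum_le_sum fun i _ => h3 i
      _ = k * n := by simp
  rcases Nat.eq_zero_or_pos k with hk | hk
  · subst hk
    have h7 : P = ∅ := by
      rw [Finset.eq_empty_iff_forall_notMem]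
      intro p hp
      obtain ⟨i, _⟩ := hP p hp
      exact i.elim0
    have h8 : n = 0 := by rw [hn, h7, Finset.card_empty]
    omega
  · have h9 : k * (2 * bad.card) ≤ k * n := by linarith [h1, mul_comm bad.card (2 * k)]
    have h10 := Nat.le_of_mul_le_mul_left h9 hk
    omega

/-- **P054**, sets covered by few rational curves of low degree. Let `P` be a set of `n ≥ 2` points
of `ℝ^d` which is covered by `k` rational curves of degree at most `D`, `k D ≤ C n ^ (1 - 2/d)`.
Then `P` determines at least `n ^ (2/d) / (6 C)` distinct distances; at least half of the points of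
`P` see that many distances. Moreover a rational curve of degree at most `D` contains at most
`2 D |Δ(P)| + 1` points of `P`. -/
theorem _root_.Vale.Agent.Results.P054.RationalCurves.result :
    (∀ (d k D : ℕ) (C : ℝ) (P : Finset (EuclideanSpace ℝ (Fin d)))
      (γ : Fin k → Set (EuclideanSpace ℝ (Fin d))), 2 ≤ P.card → 1 ≤ D →
      (∀ i, InRational D (γ i)) → (∀ p ∈ P, ∃ i, p ∈ γ i) →
      (k * D : ℝ) ≤ C * (P.card : ℝ) ^ (1 - 2 / d : ℝ) →
      (P.card : ℝ) ^ (2 / d : ℝ) ≤ 6 * C * (dists P).card ∧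
      P.card ≤ 2 * (P.filter fun x =>
        (P.card : ℝ) ^ (2 / d : ℝ) ≤ 6 * C * (pinned P x).card).card) ∧
    ∀ (d D : ℕ) (P S : Finset (EuclideanSpace ℝ (Fin d))) (γ : Set (EuclideanSpace ℝ (Fin d))),
      InRational D γ → S ⊆ P → (∀ y ∈ S, y ∈ γ) → S.card ≤ 2 * D * (dists P).card + 1 := by
  classical
  constructor
  · intro d k D C P γ hn hD hγ hP hk
    have h1 := half P γ hγ hP
    have hk0 : 1 ≤ k := by
      obtain ⟨p, hp⟩ := Finset.card_pos.1 (by omega : 0 < P.card)
      obtain ⟨i, _⟩ := hP p hp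
      exact Nat.one_le_iff_ne_zero.2 fun h => by
        subst h
        exact i.elim0
    have hnpos : (0 : ℝ) < P.card := by
      exact_mod_cast (by omega : 0 < P.card)
    have key : P.card ≤ 2 * (P.filter fun x =>
        (P.card : ℝ) ^ (2 / d : ℝ) ≤ 6 * C * (pinned P x).card).card := by
      refine h1.trans (Nat.mul_le_mul_left 2 (Finset.card_le_card ?_))
      intro x hx
      rw [Finset.mem_filter] at hx ⊢
      refine ⟨hx.1, ?_⟩
      have h2 : 1 ≤ (pinned P x).card := by
        obtain ⟨y, hy⟩ := Finset.card_pos.1 (by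
          rw [Finset.card_erase_of_mem hx.1]
          omega : 0 < (P.erase x).card)
        exact Finset.card_pos.2 ⟨_, Finset.mem_image_of_mem _ hy⟩
      have h3 : (P.card : ℝ) ≤ 2 * k * (2 * D * (pinned P x).card + 1) := by exact_mod_cast hx.2
      have h4 : (1 : ℝ) ≤ (pinned P x).card := by exact_mod_cast h2
      have h5 : (1 : ℝ) ≤ D := by exact_mod_cast hD
      have h6 : (1 : ℝ) ≤ k := by exact_mod_cast hk0
      have h7 : (P.card : ℝ) ≤ (k * D : ℝ) * (6 * (pinned P x).card) := by
        have h8 : (1 : ℝ) ≤ D * (pinned P x).card := one_le_mul_of_one_le_of_one_le h5 h4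
        have h9 : (2 * D * (pinned P x).card + 1 : ℝ) ≤ 3 * (D * (pinned P x).card) := by linarith
        have h10 : (2 * k * (2 * D * (pinned P x).card + 1) : ℝ) ≤
            2 * k * (3 * (D * (pinned P x).card)) :=
          mul_le_mul_of_nonneg_left h9 (by linarith)
        linarith
      have h12 : (P.card : ℝ) ^ (1 - 2 / d : ℝ) * (P.card : ℝ) ^ (2 / d : ℝ) = P.card := by
        rw [← Real.rpow_add hnpos, sub_add_cancel, Real.rpow_one]
      have h13 : (0 : ℝ) < (P.card : ℝ) ^ (1 - 2 / d : ℝ) := Real.rpow_pos_of_pos hnpos _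
      have h14 : (P.card : ℝ) ≤ C * (P.card : ℝ) ^ (1 - 2 / d : ℝ) * (6 * (pinned P x).card) :=
        h7.trans (mul_le_mul_of_nonneg_right hk (by linarith))
      have h15 : (P.card : ℝ) ^ (1 - 2 / d : ℝ) * (P.card : ℝ) ^ (2 / d : ℝ) ≤
          (P.card : ℝ) ^ (1 - 2 / d : ℝ) * (6 * C * (pinned P x).card) := by
        calc (P.card : ℝ) ^ (1 - 2 / d : ℝ) * (P.card : ℝ) ^ (2 / d : ℝ) = P.card := h12
          _ ≤ C * (P.card : ℝ) ^ (1 - 2 / d : ℝ) * (6 * (pinned P x).card) := h14
          _ = _ := by ring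
      exact le_of_mul_le_mul_left h15 h13
    refine ⟨?_, key⟩
    obtain ⟨x, hx⟩ := Finset.card_pos.1 (by omega : 0 < (P.filter fun x =>
        (P.card : ℝ) ^ (2 / d : ℝ) ≤ 6 * C * (pinned P x).card).card)
    rw [Finset.mem_filter] at hx
    have hC : 0 ≤ C := by
      have h13 : (0 : ℝ) < (P.card : ℝ) ^ (1 - 2 / d : ℝ) := Real.rpow_pos_of_pos hnpos _
      have h16 : (0 : ℝ) ≤ C * (P.card : ℝ) ^ (1 - 2 / d : ℝ) := le_trans (by positivity) hk
      exact nonneg_of_mul_nonneg_left h16 h13
    have h17 : ((pinned P x).card : ℝ) ≤ (dists P).card := by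
      exact_mod_cast pinned_le P hx.1
    exact hx.2.trans (mul_le_mul_of_nonneg_left h17 (by linarith))
  · intro d D P S γ hγ hSP hS
    rcases S.eq_empty_or_nonempty with he | ⟨x, hx⟩
    · rw [he]
      simp
    · have h1 := on_curve hγ P S hSP hS hx
      have h2 := Nat.mul_le_mul_left (2 * D) (pinned_le P (hSP hx))
      omega

end Vale.Agent.P054
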